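import Mathlib
import Vale.Agent.P237.Bridge

/-!
Two lemmas on hulls of a convex body and a point: splitting, and the inequality for two apices.
-/

namespace Vale.Agent.P237.Frusta

open MeasureTheory Set
open scoped ENNReal Pointwise

theorem slice_lower {W : Type*} [NormedAddCommGroup W] [NormedSpace ℝ W] [MeasureSpace W]
    [BorelSpace W] [SecondCountableTopology W] [SigmaFinite (volume : Measure W)]
    {K : Set (ℝ × W)} (hK : Convex ℝ K) (cK : IsCompact K) :
    volume K + volume (Prod.snd '' K) ≤ volume (K + seg ((1, 0) : ℝ × W)) := by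
  have hm : MeasurableSet (K + seg ((1, 0) : ℝ × W)) :=
    (cK.add (isCompact_seg _)).isClosed.measurableSet
  have hP : MeasurableSet (Prod.snd '' K) := (cK.image continuous_snd).isClosed.measurableSet
  rw [Measure.volume_eq_prod, Measure.prod_apply_symm hm,
    Measure.prod_apply_symm cK.isClosed.measurableSet,
    ← lintegral_indicator_one hP, ← lintegral_add_right _ (measurable_one.indicator hP)]
  refine lintegral_mono fun w => ?_
  set S := (fun r => (r, w)) ⁻¹' K with hS
  have hsub : S ⊆ (fun r => (r, w)) ⁻¹' (K + seg ((1, 0) : ℝ × W)) := fun x hx =>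
    ⟨(x, w), hx, 0, ⟨0, by simp, by simp⟩, add_zero _⟩
  by_cases hw : w ∈ Prod.snd '' K
  · rw [indicator_of_mem hw]
    obtain ⟨z, hz, rfl⟩ := hw
    have hne : S.Nonempty := ⟨z.1, by simp [hS, hz]⟩
    have hc : IsCompact S :=
      (cK.image continuous_fst).of_isClosed_subset (cK.isClosed.preimage (by fun_prop))
        fun x hx => ⟨(x, z.2), hx, rfl⟩
    have hconv : Convex ℝ S := by
      intro a ha b hb c d hc hd hcd
      have h := hK ha hb hc hd hcd
      simpa [hS, ← add_smul, hcd] using h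
    have h1 : S = Icc (sInf S) (sSup S) :=
      eq_Icc_of_connected_compact ⟨hne, hconv.isPreconnected⟩ hc
    set l := sInf S
    set u := sSup S
    have hlu : l ≤ u := nonempty_Icc.mp (h1 ▸ hne)
    rw [h1, Pi.one_apply, Real.volume_Icc, ← ENNReal.ofReal_one,
      ← ENNReal.ofReal_add (by linarith) zero_le_one,
      show u - l + 1 = u + 1 - l by ring, ← Real.volume_Icc]
    refine measure_mono fun x hx => ?_
    by_cases hxu : x ≤ u
    · exact hsub (h1 ▸ ⟨hx.1, hxu⟩)
    · have hu : u ∈ S := h1 ▸ ⟨hlu, le_rfl⟩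
      refine ⟨(u, z.2), hu, (x - u) • ((1, 0) : ℝ × W), ⟨x - u, ⟨by linarith, by linarith [hx.2]⟩,
        rfl⟩, ?_⟩
      simp
  · rw [indicator_of_notMem hw, add_zero]
    exact measure_mono hsub

variable {X : Type*} [NormedAddCommGroup X] [NormedSpace ℝ X]

/-- The part of the hull of `C` and `p` made of the homothetic copies with ratio in `[s, 1]`. -/
def hull (s : ℝ) (C : Set X) (p : X) : Set X :=
  (fun z : ℝ × X => z.1 • z.2 + (1 - z.1) • p) '' Icc s 1 ×ˢ C

theorem isCompact_hull {C : Set X} (cC : IsCompact C) (s : ℝ) (p : X) : IsCompact (hull s C p) :=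
  (isCompact_Icc.prod cC).image (by fun_prop)

theorem subset_hull {C : Set X} {s : ℝ} (hs : s ≤ 1) (p : X) : C ⊆ hull s C p :=
  fun c hc => ⟨(1, c), ⟨⟨hs, le_rfl⟩, hc⟩, by simp⟩

theorem convex_hull_apex {C : Set X} (hC : Convex ℝ C) {s : ℝ} (hs : 0 ≤ s) (p : X) :
    Convex ℝ (hull s C p) := by
  rintro _ ⟨⟨a, c⟩, ⟨ha, hc⟩, rfl⟩ _ ⟨⟨b, d⟩, ⟨hb, hd⟩, rfl⟩ u v hu hv huv
  have hmem : u • a • c + v • b • d ∈ (u * a + v * b) • C := by
    rw [hC.add_smul (mul_nonneg hu (hs.trans ha.1)) (mul_nonneg hv (hs.trans hb.1)),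
      smul_smul, smul_smul]
    exact add_mem_add (smul_mem_smul_set hc) (smul_mem_smul_set hd)
  obtain ⟨e, he, heq⟩ := hmem
  refine ⟨(u * a + v * b, e), ⟨convex_Icc s 1 ha hb hu hv huv, he⟩, ?_⟩
  simp only at heq ⊢
  have hu' : u = 1 - v := by linarith
  subst hu'
  rw [heq]
  module

/-- A part of a hull and a homothetic copy of the whole hull cover the hull. -/
theorem hull_split [MeasureSpace X] [BorelSpace X] [FiniteDimensional ℝ X]
    [Measure.IsAddHaarMeasure (volume : Measure X)] {C : Set X} (cC : IsCompact C) {s : ℝ}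
    (hs : 0 ≤ s) (hs1 : s ≤ 1) (p : X) :
    volume (hull 0 C p) + ENNReal.ofReal (s ^ Module.finrank ℝ X) * volume C
      ≤ volume (hull s C p) + ENNReal.ofReal (s ^ Module.finrank ℝ X) * volume (hull 0 C p) := by
  set T : X → X := fun x => s • x + (1 - s) • p
  have hT : ∀ A : Set X, volume (T '' A) = ENNReal.ofReal (s ^ Module.finrank ℝ X) * volume A := by
    intro A
    rw [show T '' A = (fun y => y + (1 - s) • p) '' (s • A) by
        rw [← image_smul, image_image], image_add_right, measure_preimage_add_right,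
      Measure.addHaar_smul_of_nonneg volume hs]
  have hm : MeasurableSet (T '' hull 0 C p) :=
    ((isCompact_hull cC 0 p).image (by fun_prop : Continuous T)).isClosed.measurableSet
  have hcov : hull 0 C p ⊆ hull s C p ∪ T '' hull 0 C p := by
    rintro _ ⟨⟨a, c⟩, ⟨ha, hc⟩, rfl⟩
    by_cases has : s ≤ a
    · exact Or.inl ⟨(a, c), ⟨⟨has, ha.2⟩, hc⟩, rfl⟩
    · have hs0 : 0 < s := lt_of_le_of_lt ha.1 (not_le.mp has)
      refine Or.inr ⟨(a / s) • c + (1 - a / s) • p, ⟨(a / s, c), ⟨⟨div_nonneg ha.1 hs,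
        (div_le_one hs0).mpr (not_le.mp has).le⟩, hc⟩, rfl⟩, ?_⟩
      simp only [T, smul_add, smul_smul]
      rw [mul_div_cancel₀ _ hs0.ne', mul_sub, mul_one, mul_div_cancel₀ _ hs0.ne']
      module
  have hint : T '' C ⊆ hull s C p ∩ T '' hull 0 C p := by
    refine subset_inter ?_ (image_mono (subset_hull zero_le_one p))
    rintro _ ⟨c, hc, rfl⟩
    exact ⟨(s, c), ⟨⟨le_rfl, hs1⟩, hc⟩, rfl⟩
  calc volume (hull 0 C p) + ENNReal.ofReal (s ^ Module.finrank ℝ X) * volume C
      ≤ volume (hull s C p ∪ T '' hull 0 C p) + volume (hull s C p ∩ T '' hull 0 C p) := by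
        rw [← hT]; exact add_le_add (measure_mono hcov) (measure_mono hint)
    _ = _ := by rw [measure_union_add_inter _ hm, hT]

theorem integral_pow_affine (k : ℕ) {σ : ℝ} (h0 : 0 ≤ σ) (h1 : σ ≤ 1) :
    ∫⁻ t in Icc (0 : ℝ) 1, ENNReal.ofReal ((1 - σ * t) ^ k)
      = ENNReal.ofReal (∫ t in (0 : ℝ)..1, (1 - σ * t) ^ k) := by
  rw [intervalIntegral.integral_of_le zero_le_one, ← integral_Icc_eq_integral_Ioc,
    ofReal_integral_eq_lintegral_ofReal]
  · exact (Continuous.integrableOn_Icc (by fun_prop))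
  · refine (ae_restrict_iff' measurableSet_Icc).mpr (Filter.Eventually.of_forall fun t ht => ?_)
    exact pow_nonneg (by nlinarith [ht.1, ht.2]) k

theorem length_ge {F : Set ℝ} (hF : Convex ℝ F) {a b : ℝ} (ha : a ∈ F) (hb : b ∈ F) :
    ENNReal.ofReal |a - b| ≤ volume F := by
  have h : uIcc b a ⊆ F := segment_eq_uIcc (𝕜 := ℝ) b a ▸ hF.segment_subset hb ha
  refine le_trans (le_of_eq ?_) (measure_mono h)
  rw [uIcc, Real.volume_Icc, max_sub_min_eq_abs]

theorem two_hulls_coord {k : ℕ} {C : Set (ℝ × (Fin k → ℝ))} (hC : Convex ℝ C) (cC : IsCompact C)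
    (q : ℝ × (Fin k → ℝ)) :
    volume C + ENNReal.ofReal (1 / ((k : ℝ) + 1)) * volume (Prod.snd '' C)
      ≤ volume (hull 0 C (q + (1, 0))) + volume (hull 0 C q) := by
  set p : ℝ × (Fin k → ℝ) := q + (1, 0) with hpdef
  set S := Prod.snd '' C with hS
  have cS : IsCompact S := cC.image continuous_snd
  have hSc : Convex ℝ S := hC.linear_image (LinearMap.snd ℝ ℝ (Fin k → ℝ))
  set Py : Set (ℝ × (Fin k → ℝ)) :=
    (fun z : ℝ × (Fin k → ℝ) => (z.1, (1 - z.1) • z.2 + z.1 • q.2)) '' Icc (0 : ℝ) 1 ×ˢ S with hPy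
  have cPy : IsCompact Py := (isCompact_Icc.prod cS).image (by fun_prop)
  have hPc : Convex ℝ Py := by
    rintro _ ⟨⟨a, c⟩, ⟨ha, hc⟩, rfl⟩ _ ⟨⟨b, d⟩, ⟨hb, hd⟩, rfl⟩ u v hu hv huv
    have hmem : u • (1 - a) • c + v • (1 - b) • d ∈ (u * (1 - a) + v * (1 - b)) • S := by
      rw [hSc.add_smul (mul_nonneg hu (by linarith [ha.2])) (mul_nonneg hv (by linarith [hb.2])),
        smul_smul, smul_smul]
      exact add_mem_add (smul_mem_smul_set hc) (smul_mem_smul_set hd)
    obtain ⟨e, he, heq⟩ := hmem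
    refine ⟨(u * a + v * b, e), ⟨convex_Icc 0 1 ha hb hu hv huv, he⟩, ?_⟩
    simp only at heq ⊢
    simp only [Prod.smul_mk, Prod.mk_add_mk, smul_eq_mul, Prod.mk.injEq, true_and]
    have hu' : u = 1 - v := by linarith
    subst hu'
    rw [show 1 - ((1 - v) * a + v * b) = (1 - v) * (1 - a) + v * (1 - b) by ring, heq]
    module
  have hvol : volume Py = ENNReal.ofReal (1 / ((k : ℝ) + 1)) * volume S := by
    rw [Measure.volume_eq_prod, Measure.prod_apply cPy.isClosed.measurableSet]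
    have hfib : ∀ t : ℝ, volume (Prod.mk t ⁻¹' Py)
        = (Icc (0 : ℝ) 1).indicator (fun t => ENNReal.ofReal ((1 - 1 * t) ^ k) * volume S) t := by
      intro t
      by_cases ht : t ∈ Icc (0 : ℝ) 1
      · rw [indicator_of_mem ht]
        have e : Prod.mk t ⁻¹' Py = (fun y => y + t • q.2) '' ((1 - t) • S) := by
          ext y
          constructor
          · rintro ⟨⟨a, c⟩, ⟨-, hc⟩, he⟩
            simp only [Prod.mk.injEq] at he
            obtain ⟨rfl, rfl⟩ := he
            exact ⟨_, smul_mem_smul_set hc, rfl⟩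
          · rintro ⟨_, ⟨c, hc, rfl⟩, rfl⟩
            exact ⟨(t, c), ⟨ht, hc⟩, rfl⟩
        rw [e, image_add_right, measure_preimage_add_right,
          Measure.addHaar_smul_of_nonneg volume (sub_nonneg.mpr ht.2), Module.finrank_fin_fun,
          one_mul]
      · rw [indicator_of_notMem ht]
        have e : Prod.mk t ⁻¹' Py = ∅ := by
          refine eq_empty_of_forall_notMem fun y ⟨⟨a, c⟩, ⟨ha, _⟩, he⟩ => ht ?_
          simp only [Prod.mk.injEq] at he
          exact he.1 ▸ ha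
        rw [e, measure_empty]
    simp only [hfib]
    rw [lintegral_indicator measurableSet_Icc, lintegral_mul_const _ (by fun_prop),
      integral_pow_affine k zero_le_one le_rfl]
    congr 2
    simp only [one_mul]
    rw [intervalIntegral.integral_comp_sub_left (fun x => x ^ k) 1, sub_self, sub_zero,
      integral_pow]
    simp
  rw [← hvol, Measure.volume_eq_prod,
    Measure.prod_apply_symm cC.isClosed.measurableSet,
    Measure.prod_apply_symm cPy.isClosed.measurableSet,
    Measure.prod_apply_symm (isCompact_hull cC 0 p).isClosed.measurableSet,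
    Measure.prod_apply_symm (isCompact_hull cC 0 q).isClosed.measurableSet,
    ← lintegral_add_right _ (measurable_measure_prodMk_right cPy.isClosed.measurableSet),
    ← lintegral_add_right _
      (measurable_measure_prodMk_right (isCompact_hull cC 0 q).isClosed.measurableSet)]
  refine lintegral_mono fun y => ?_
  set I := (fun t => (t, y)) ⁻¹' Py with hI
  set Fp := (fun r => (r, y)) ⁻¹' hull 0 C p
  set Fq := (fun r => (r, y)) ⁻¹' hull 0 C q
  have hfibc : ∀ {A : Set (ℝ × (Fin k → ℝ))}, Convex ℝ A → Convex ℝ ((fun r => (r, y)) ⁻¹' A) := by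
    intro A hA a ha b hb c d hc hd hcd
    have h := hA ha hb hc hd hcd
    simpa [← add_smul, hcd] using h
  have hFp : Convex ℝ Fp := hfibc (convex_hull_apex hC le_rfl p)
  have hFq : Convex ℝ Fq := hfibc (convex_hull_apex hC le_rfl q)
  -- points of the two hulls over `y`
  have hpts : ∀ t ∈ I, ∃ a : ℝ, a ∈ Fp ∧ a - t ∈ Fq := by
    rintro t ⟨⟨t', c⟩, ⟨ht, hc⟩, he⟩
    simp only [Prod.mk.injEq] at he
    obtain ⟨rfl, he⟩ := he
    obtain ⟨⟨r, c'⟩, hr, rfl⟩ := hc
    refine ⟨(1 - t') * r + t' * p.1, ⟨(1 - t', (r, c')), ⟨⟨by linarith [ht.2], by linarith [ht.1]⟩,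
      hr⟩, ?_⟩, ⟨(1 - t', (r, c')), ⟨⟨by linarith [ht.2], by linarith [ht.1]⟩, hr⟩, ?_⟩⟩
    · refine Prod.ext ?_ ?_
      · simp
      · simpa [hpdef] using he
    · refine Prod.ext ?_ ?_
      · simp [hpdef]; ring
      · simpa using he
  rcases I.eq_empty_or_nonempty with hIe | hIne
  · have hCe : (fun r => (r, y)) ⁻¹' C = ∅ := by
      refine eq_empty_of_forall_notMem fun r hr => ?_
      have : (0 : ℝ) ∈ I := ⟨(0, y), ⟨by simp, ⟨(r, y), hr, rfl⟩⟩, by simp⟩
      rw [hIe] at this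
      exact this
    simp [hIe, hCe]
  have hIc : IsCompact I := (cPy.image continuous_fst).of_isClosed_subset
    (cPy.isClosed.preimage (by fun_prop)) fun x hx => ⟨(x, y), hx, rfl⟩
  have hI1 : I = Icc (sInf I) (sSup I) :=
    eq_Icc_of_connected_compact ⟨hIne, (hfibc hPc).isPreconnected⟩ hIc
  set t1 := sInf I
  set t2 := sSup I
  have ht12 : t1 ≤ t2 := nonempty_Icc.mp (hI1 ▸ hIne)
  obtain ⟨a2, ha2, hb2⟩ := hpts t2 (hI1 ▸ ⟨ht12, le_rfl⟩)
  rw [hI1, Real.volume_Icc]
  rcases ((fun r => (r, y)) ⁻¹' C).eq_empty_or_nonempty with hCe | hCne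
  · obtain ⟨a1, ha1, hb1⟩ := hpts t1 (hI1 ▸ ⟨le_rfl, ht12⟩)
    rw [hCe, measure_empty, zero_add]
    refine le_trans ?_ (add_le_add (length_ge hFp ha2 ha1) (length_ge hFq hb1 hb2))
    rw [← ENNReal.ofReal_add (abs_nonneg _) (abs_nonneg _)]
    refine ENNReal.ofReal_le_ofReal ?_
    linarith [le_abs_self (a2 - a1), le_abs_self (a1 - t1 - (a2 - t2))]
  · have cF : IsCompact ((fun r => (r, y)) ⁻¹' C) := (cC.image continuous_fst).of_isClosed_subset
      (cC.isClosed.preimage (by fun_prop)) fun x hx => ⟨(x, y), hx, rfl⟩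
    have hF1 : (fun r => (r, y)) ⁻¹' C = Icc (sInf ((fun r => (r, y)) ⁻¹' C))
        (sSup ((fun r => (r, y)) ⁻¹' C)) :=
      eq_Icc_of_connected_compact ⟨hCne, (hfibc hC).isPreconnected⟩ cF
    set l := sInf ((fun r => (r, y)) ⁻¹' C)
    set u := sSup ((fun r => (r, y)) ⁻¹' C)
    have hlu : l ≤ u := nonempty_Icc.mp (hF1 ▸ hCne)
    have hl : (l, y) ∈ C := by
      have : l ∈ (fun r => (r, y)) ⁻¹' C := by rw [hF1]; exact ⟨le_rfl, hlu⟩
      exact this
    have hu : (u, y) ∈ C := by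
      have : u ∈ (fun r => (r, y)) ⁻¹' C := by rw [hF1]; exact ⟨hlu, le_rfl⟩
      exact this
    have h0 : (0 : ℝ) ∈ I := ⟨(0, y), ⟨by simp, ⟨(l, y), hl, rfl⟩⟩, by simp⟩
    rw [hI1] at h0
    rw [hF1, Real.volume_Icc]
    refine le_trans ?_ (add_le_add (length_ge hFp ha2 (b := l) (subset_hull zero_le_one p hl))
      (length_ge hFq (a := u) (subset_hull zero_le_one q hu) hb2))
    rw [← ENNReal.ofReal_add (by linarith) (by linarith),
      ← ENNReal.ofReal_add (abs_nonneg _) (abs_nonneg _)]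
    refine ENNReal.ofReal_le_ofReal ?_
    obtain ⟨⟨a, _⟩, ⟨ha, _⟩, he⟩ : (t1, y) ∈ Py := by
      have : t1 ∈ I := by rw [hI1]; exact ⟨le_rfl, ht12⟩
      exact this
    simp only [Prod.mk.injEq] at he
    linarith [le_abs_self (a2 - l), le_abs_self (u - (a2 - t2)), ha.1, he.1]

/-- The linear map that sends a basis vector to `d`. -/
noncomputable def shift {n : ℕ} (i : Fin n) (d : Fin n → ℝ) (hd : d i ≠ 0) :
    (Fin n → ℝ) ≃ₗ[ℝ] (Fin n → ℝ) where
  toFun x := x + x i • (d - Pi.single i 1)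
  map_add' x y := by simp only [Pi.add_apply, add_smul]; abel
  map_smul' c x := by simp [mul_smul]
  invFun y := y + (y i / d i) • (Pi.single i 1 - d)
  left_inv x := by
    ext j
    simp
    field_simp
    ring
  right_inv y := by
    ext j
    simp
    field_simp
    ring

theorem two_hulls {k : ℕ} {C : Set (Fin (k + 1) → ℝ)} (hC : Convex ℝ C) (cC : IsCompact C)
    (p q : Fin (k + 1) → ℝ) :
    volume C + ENNReal.ofReal (1 / ((k : ℝ) + 1)) * volume (C + seg (p - q))
      ≤ volume (hull 0 C p) + volume (hull 0 C q)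
        + ENNReal.ofReal (1 / ((k : ℝ) + 1)) * volume C := by
  by_cases hd : p - q = 0
  · have e : seg (p - q) = {0} := by
      rw [hd]; ext x; simp [seg, eq_comm, (nonempty_Icc.mpr zero_le_one)]
    have h0 : C + ({0} : Set (Fin (k + 1) → ℝ)) = C := by simp
    rw [e, h0]
    gcongr
    exact le_add_right (measure_mono (subset_hull zero_le_one p))
  obtain ⟨i, hi⟩ : ∃ i, (p - q) i ≠ 0 := Function.ne_iff.mp hd
  set L := shift i (p - q) hi
  set π' := MeasurableEquiv.piFinSuccAbove (fun _ : Fin (k + 1) => ℝ) i with hπ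
  set e : ℝ × (Fin k → ℝ) → (Fin (k + 1) → ℝ) := fun z => L (π'.symm z) with he
  set κ : ℝ≥0∞ := ENNReal.ofReal |(LinearMap.det L.toLinearMap)|
  have hκ0 : κ ≠ 0 := (ENNReal.ofReal_pos.mpr (abs_pos.mpr L.isUnit_det'.ne_zero)).ne'
  have hvol : ∀ A, volume (e '' A) = κ * volume A := by
    intro A
    rw [show e '' A = L.toLinearMap '' (π'.symm '' A) by rw [image_image]; rfl,
      Measure.addHaar_image_linearMap, π'.image_symm,
      (volume_preserving_piFinSuccAbove (fun _ : Fin (k + 1) => ℝ) i).measure_preimage_equiv]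
  have hsym : ∀ z : ℝ × (Fin k → ℝ), π'.symm z = Fin.insertNth i z.1 z.2 := fun z => rfl
  have hl : IsLinearMap ℝ e := by
    have hp' : IsLinearMap ℝ π'.symm := by
      constructor <;> intros <;> ext j <;> cases j using Fin.succAboveCases i <;> simp [hsym]
    constructor <;> intros <;> simp [he, hp'.map_add, hp'.map_smul]
  have hinj : Function.Injective e := L.injective.comp π'.symm.injective
  have hsurj : Function.Surjective e := L.surjective.comp π'.symm.surjective
  have hd1 : e (1, 0) = p - q := by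
    have : π'.symm (1, 0) = Pi.single i (1 : ℝ) := by
      ext j
      cases j using Fin.succAboveCases i <;> simp [hsym, Fin.succAbove_ne]
    simp [he, this, L, shift]
  set C' := e ⁻¹' C
  have hC'c : Convex ℝ C' := hC.is_linear_preimage hl
  have hec : Continuous e :=
    (hl.mk' e).continuous_of_finiteDimensional
  have hC'k : IsCompact C' := by
    set E' := LinearEquiv.ofBijective (hl.mk' e) ⟨hinj, hsurj⟩
    have hh : C' = E'.symm '' C := by
      ext x
      exact ⟨fun h => ⟨e x, h, E'.symm_apply_apply x⟩, fun ⟨y, hy, h⟩ => by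
        rw [← h]; show e (E'.symm y) ∈ C
        rw [show e (E'.symm y) = y from E'.apply_symm_apply y]; exact hy⟩
    rw [hh]
    exact cC.image E'.symm.toLinearMap.continuous_of_finiteDimensional
  obtain ⟨q', hq'⟩ := hsurj q
  have hC' : e '' C' = C := image_preimage_eq C hsurj
  have hh : ∀ z, e '' hull 0 C' z = hull 0 C (e z) := by
    intro z
    ext x
    constructor
    · rintro ⟨_, ⟨⟨a, c⟩, ⟨ha, hc⟩, rfl⟩, rfl⟩
      exact ⟨(a, e c), ⟨ha, hc⟩, by simp [hl.map_add, hl.map_smul]⟩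
    · rintro ⟨⟨a, c⟩, ⟨ha, hc⟩, rfl⟩
      obtain ⟨c', rfl⟩ := hsurj c
      exact ⟨_, ⟨(a, c'), ⟨ha, hc⟩, rfl⟩, by simp [hl.map_add, hl.map_smul]⟩
  have hs : e '' (C' + seg ((1, 0) : ℝ × (Fin k → ℝ))) = C + seg (p - q) := by
    ext x
    constructor
    · rintro ⟨_, ⟨a, ha, _, ⟨t, ht, rfl⟩, rfl⟩, rfl⟩
      exact ⟨e a, ha, t • (p - q), ⟨t, ht, rfl⟩, by rw [hl.map_add, hl.map_smul, hd1]⟩
    · rintro ⟨c, hc, _, ⟨t, ht, rfl⟩, rfl⟩
      obtain ⟨a, rfl⟩ := hsurj c
      exact ⟨a + t • (1, 0), ⟨a, hc, _, ⟨t, ht, rfl⟩, rfl⟩, by rw [hl.map_add, hl.map_smul, hd1]⟩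
  have key : volume C' + ENNReal.ofReal (1 / ((k : ℝ) + 1)) * volume (C' + seg ((1, 0) : ℝ × _))
      ≤ volume (hull 0 C' (q' + (1, 0))) + volume (hull 0 C' q')
        + ENNReal.ofReal (1 / ((k : ℝ) + 1)) * volume C' := by
    refine le_trans (add_le_add le_rfl (mul_le_mul_right (slice_upper hC'c hC'k) _)) ?_
    rw [mul_add, add_comm (ENNReal.ofReal _ * volume C'), ← add_assoc]
    exact add_le_add (two_hulls_coord hC'c hC'k q') le_rfl
  have h := mul_le_mul_right key κ
  simp only [mul_add, mul_left_comm κ] at h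
  rw [← hvol, ← hvol, ← hvol, ← hvol, hC', hs, hh, hh, hl.map_add, hd1, hq',
    add_sub_cancel] at h
  exact h

end Vale.Agent.P237.Frusta
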