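import Mathlib
import Vale.Agent.P237.Slices

/-!
Coordinate bodies with a large projection body, closed under affine maps and products.
-/

namespace Vale.Agent.P237.Frusta

open MeasureTheory Set
open scoped ENNReal Pointwise Matrix

variable {n p r : ℕ}

/-- Functionals dominated by the growth of the volume of `K` under adding segments. -/
def Pol (K : Set (Fin n → ℝ)) : Set (Fin n → ℝ) :=
  {q | ∀ v, volume K + ENNReal.ofReal |q ⬝ᵥ v| ≤ volume (K + seg v)}

/-- A convex body whose projection set has volume at least `2 ^ n |K| ^ (n - 1)`. -/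
structure Good (K : Set (Fin n → ℝ)) : Prop where
  convex : Convex ℝ K
  compact : IsCompact K
  pos : volume K ≠ 0
  bound : 2 ^ n * volume K ^ (n - 1) ≤ volume (Pol K)

theorem Good.ne_top {K : Set (Fin n → ℝ)} (h : Good K) : volume K ≠ ⊤ := h.compact.measure_ne_top

theorem isClosed_pol (K : Set (Fin n → ℝ)) : IsClosed (Pol K) := by
  have : Pol K = ⋂ v, {q | volume K + ENNReal.ofReal |q ⬝ᵥ v| ≤ volume (K + seg v)} := by
    ext q; simp [Pol]
  rw [this]
  refine isClosed_iInter fun v => isClosed_le ?_ continuous_const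
  exact continuous_const.add (ENNReal.continuous_ofReal.comp
    (continuous_abs.comp (continuous_id.dotProduct continuous_const)))

theorem good_planar {A : Set (Fin 2 → ℝ)} (hA : Convex ℝ A) (cA : IsCompact A)
    (hi : (interior A).Nonempty) : Good A := by
  refine ⟨hA, cA, (Measure.measure_pos_of_nonempty_interior _ hi).ne', ?_⟩
  set R : (Fin 2 → ℝ) →ₗ[ℝ] (Fin 2 → ℝ) := Matrix.toLin' !![0, -1; 1, 0] with hR
  have hsub : R '' (A - A) ⊆ Pol A := by
    rintro _ ⟨_, ⟨x, hx, y, hy, rfl⟩, rfl⟩ v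
    refine le_trans (le_of_eq ?_) (grows_planar hA cA v x y hx hy)
    congr 2
    rw [← abs_neg]
    congr 1
    simp [hR, dotProduct, Matrix.mulVec, Fin.sum_univ_two]
    ring
  refine le_trans ?_ (measure_mono hsub)
  rw [Measure.addHaar_image_linearMap, hR, LinearMap.det_toLin', Matrix.det_fin_two_of]
  norm_num
  exact volume_sub_self cA

theorem good_interval : Good {x : Fin 1 → ℝ | x 0 ∈ Icc (0 : ℝ) 1} := by
  have e : {x : Fin 1 → ℝ | x 0 ∈ Icc (0 : ℝ) 1} = univ.pi fun _ => Icc (0 : ℝ) 1 := by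
    ext x; simp [Pi.le_def, Fin.forall_fin_one]
  have hv : volume {x : Fin 1 → ℝ | x 0 ∈ Icc (0 : ℝ) 1} = 1 := by
    rw [e, volume_pi_pi]; simp
  refine ⟨e ▸ convex_pi fun _ _ => convex_Icc _ _, e ▸ isCompact_univ_pi fun _ => isCompact_Icc,
    by rw [hv]; exact one_ne_zero, ?_⟩
  have hsub : (univ.pi fun _ : Fin 1 => Icc (-1 : ℝ) 1) ⊆ Pol {x | x 0 ∈ Icc (0 : ℝ) 1} := by
    intro q hq v
    have hg := grows_pi 1 (fun _ : Fin 1 => Icc (0 : ℝ) 1) (fun _ w => ENNReal.ofReal |w|)
      (fun _ => isCompact_Icc) (fun _ => convex_Icc _ _) (fun _ => grows_interval)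
      (fun _ => hom_abs) v
    rw [← e, hv, one_mul] at hg
    simp only [Fin.sum_univ_one] at hg
    refine le_trans ?_ hg
    rw [hv]
    refine add_le_add le_rfl (ENNReal.ofReal_le_ofReal ?_)
    rw [dotProduct, Fin.sum_univ_one, abs_mul]
    exact mul_le_of_le_one_left (abs_nonneg _) (abs_le.mpr ⟨(hq 0 trivial).1, (hq 0 trivial).2⟩)
  refine le_trans ?_ (measure_mono hsub)
  rw [volume_pi_pi, hv]
  norm_num

/-- The affine map with linear part `M`. -/
def affMap (M : Matrix (Fin n) (Fin n) ℝ) (c : Fin n → ℝ) (x : Fin n → ℝ) : Fin n → ℝ := M *ᵥ x + c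

theorem Good.affine {K : Set (Fin n → ℝ)} (h : Good K) (hn : 1 ≤ n) {M : Matrix (Fin n) (Fin n) ℝ}
    (hM : M.det ≠ 0) (c : Fin n → ℝ) : Good (affMap M c '' K) := by
  set k : ℝ := |M.det| with hk
  have hk0 : 0 < k := abs_pos.mpr hM
  have hvol : ∀ S, volume (affMap M c '' S) = ENNReal.ofReal k * volume S := by
    intro S
    rw [show affMap M c '' S = (fun y => y + c) '' (Matrix.toLin' M '' S) by
        rw [image_image]; exact image_congr fun x _ => by simp [affMap],
      image_add_right, measure_preimage_add_right, Measure.addHaar_image_linearMap,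
      LinearMap.det_toLin']
  have hcont : Continuous (affMap M c) :=
    ((Matrix.toLin' M).continuous_of_finiteDimensional).add continuous_const
  have hconv : Convex ℝ (affMap M c '' K) := by
    rw [show affMap M c '' K = (fun x => c + x) '' (Matrix.toLin' M '' K) by
      rw [image_image]; exact image_congr fun x _ => by simp [affMap, add_comm]]
    exact (h.convex.linear_image (Matrix.toLin' M)).translate c
  refine ⟨hconv, h.compact.image hcont, by rw [hvol]; simp [hk0, h.pos], ?_⟩
  set L : (Fin n → ℝ) →ₗ[ℝ] (Fin n → ℝ) := Matrix.toLin' (k • M⁻¹ᵀ) with hL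
  have hsub : L '' Pol K ⊆ Pol (affMap M c '' K) := by
    rintro _ ⟨q, hq, rfl⟩ v
    have hv : M *ᵥ (M⁻¹ *ᵥ v) = v := by
      rw [Matrix.mulVec_mulVec, Matrix.mul_nonsing_inv _ (Ne.isUnit hM), Matrix.one_mulVec]
    have hs : affMap M c '' K + seg v = affMap M c '' (K + seg (M⁻¹ *ᵥ v)) := by
      ext x
      constructor
      · rintro ⟨_, ⟨z, hz, rfl⟩, _, ⟨t, ht, rfl⟩, rfl⟩
        refine ⟨z + t • (M⁻¹ *ᵥ v), ⟨z, hz, _, ⟨t, ht, rfl⟩, rfl⟩, ?_⟩
        simp only [affMap, Matrix.mulVec_add, Matrix.mulVec_smul, hv]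
        abel
      · rintro ⟨_, ⟨z, hz, _, ⟨t, ht, rfl⟩, rfl⟩, rfl⟩
        refine ⟨affMap M c z, ⟨z, hz, rfl⟩, t • v, ⟨t, ht, rfl⟩, ?_⟩
        simp only [affMap, Matrix.mulVec_add, Matrix.mulVec_smul, hv]
        abel
    rw [hs, hvol, hvol]
    have e : L q ⬝ᵥ v = k * (q ⬝ᵥ (M⁻¹ *ᵥ v)) := by
      rw [hL, Matrix.toLin'_apply, Matrix.smul_mulVec, smul_dotProduct, Matrix.mulVec_transpose,
        ← Matrix.dotProduct_mulVec, smul_eq_mul]
    rw [e, abs_mul, abs_of_pos hk0, ENNReal.ofReal_mul hk0.le, ← mul_add]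
    exact mul_le_mul_right (hq _) _
  refine le_trans ?_ (measure_mono hsub)
  have hdet : |LinearMap.det L| = k ^ (n - 1) := by
    rw [hL, LinearMap.det_toLin', Matrix.det_smul, Matrix.det_transpose, Matrix.det_nonsing_inv,
      Ring.inverse_eq_inv', abs_mul, abs_pow, abs_of_pos hk0, abs_inv, Fintype.card_fin, ← hk]
    obtain ⟨j, rfl⟩ : ∃ j, n = j + 1 := ⟨n - 1, by omega⟩
    rw [Nat.add_sub_cancel, pow_succ]
    field_simp
  rw [Measure.addHaar_image_linearMap, hdet, hvol, mul_pow, ← ENNReal.ofReal_pow hk0.le]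
  calc 2 ^ n * (ENNReal.ofReal (k ^ (n - 1)) * volume K ^ (n - 1))
      = ENNReal.ofReal (k ^ (n - 1)) * (2 ^ n * volume K ^ (n - 1)) := by ring
    _ ≤ _ := mul_le_mul_right h.bound _

/-- The two blocks of coordinates. -/
def split (p r : ℕ) : (Fin (p + r) → ℝ) ≃ᵐ (Fin p → ℝ) × (Fin r → ℝ) where
  toFun x := (fun i => x (Fin.castAdd r i), fun j => x (Fin.natAdd p j))
  invFun y := Fin.append y.1 y.2
  left_inv x := Fin.append_castAdd_natAdd
  right_inv y := by ext i <;> simp
  measurable_toFun := by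
    exact (measurable_pi_lambda _ fun i => measurable_pi_apply _).prodMk
      (measurable_pi_lambda _ fun j => measurable_pi_apply _)
  measurable_invFun := by
    refine measurable_pi_lambda _ fun k => ?_
    induction k using Fin.addCases with
    | left i => simp; fun_prop
    | right j => simp; fun_prop

theorem split_mp (p r : ℕ) : MeasurePreserving (split p r) volume volume := by
  refine MeasurePreserving.symm (split p r).symm ⟨(split p r).symm.measurable, ?_⟩
  refine (Measure.pi_eq fun s hs => ?_).symm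
  rw [Measure.map_apply (split p r).symm.measurable (MeasurableSet.univ_pi hs)]
  have e : (split p r).symm ⁻¹' univ.pi s
      = (univ.pi fun i => s (Fin.castAdd r i)) ×ˢ univ.pi fun j => s (Fin.natAdd p j) := by
    ext y
    simp [split, Fin.forall_fin_add, MeasurableEquiv.symm]
  rw [e, Measure.volume_eq_prod, Measure.prod_prod, volume_pi_pi, volume_pi_pi, Fin.prod_univ_add]

theorem split_linear (p r : ℕ) : IsLinearMap ℝ (split p r) := by
  constructor <;> intros <;> ext <;> simp [split]

/-- Product of two coordinate bodies. -/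
def prodSet (A : Set (Fin p → ℝ)) (B : Set (Fin r → ℝ)) : Set (Fin (p + r) → ℝ) :=
  split p r ⁻¹' A ×ˢ B

theorem Good.prod {A : Set (Fin p → ℝ)} {B : Set (Fin r → ℝ)} (hA : Good A) (hB : Good B)
    (hp : 1 ≤ p) (hr : 1 ≤ r) : Good (prodSet A B) := by
  have hv : volume (prodSet A B) = volume A * volume B := by
    rw [prodSet, (split_mp p r).measure_preimage_equiv, Measure.volume_eq_prod, Measure.prod_prod]
  have hcs : Continuous (split p r).symm := by
    refine continuous_pi fun k => ?_
    induction k using Fin.addCases with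
    | left i => simp [split, MeasurableEquiv.symm]; fun_prop
    | right j => simp [split, MeasurableEquiv.symm]; fun_prop
  have hcomp : IsCompact (prodSet A B) := by
    have e : prodSet A B = (split p r).symm '' A ×ˢ B := by
      ext x; exact ⟨fun h => ⟨_, h, (split p r).symm_apply_apply x⟩,
        fun ⟨y, hy, h⟩ => by simpa [prodSet, ← h] using hy⟩
    rw [e]; exact (hA.compact.prod hB.compact).image hcs
  refine ⟨(hA.convex.prod hB.convex).is_linear_preimage (split_linear p r), hcomp,
    by rw [hv]; exact mul_ne_zero hA.pos hB.pos, ?_⟩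
  set a := (volume A).toReal
  set b := (volume B).toReal
  have ha : 0 < a := ENNReal.toReal_pos hA.pos hA.ne_top
  have hb : 0 < b := ENNReal.toReal_pos hB.pos hB.ne_top
  have ea : ENNReal.ofReal a = volume A := ENNReal.ofReal_toReal hA.ne_top
  have eb : ENNReal.ofReal b = volume B := ENNReal.ofReal_toReal hB.ne_top
  have hsub : split p r ⁻¹' (b • Pol A) ×ˢ (a • Pol B) ⊆ Pol (prodSet A B) := by
    rintro x ⟨⟨qa, hqa, e1⟩, ⟨qb, hqb, e2⟩⟩ v
    simp only at e1 e2
    have hgA : Grows A fun w => ENNReal.ofReal |qa ⬝ᵥ w| / volume A := fun w => by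
      rw [mul_add, mul_one, ENNReal.mul_div_cancel hA.pos hA.ne_top]; exact hqa w
    have hgB : Grows B fun w => ENNReal.ofReal |qb ⬝ᵥ w| / volume B := fun w => by
      rw [mul_add, mul_one, ENNReal.mul_div_cancel hB.pos hB.ne_top]; exact hqb w
    have hhom : Hom fun w => ENNReal.ofReal |qa ⬝ᵥ w| / volume A := fun c hc w => by
      simp only
      rw [dotProduct_smul, smul_eq_mul, abs_mul, abs_of_nonneg hc, ENNReal.ofReal_mul hc,
        mul_div_assoc]
    have hg := (hgA.prod hA.compact hB.compact hB.convex hhom hgB).comap (split p r)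
      (split_mp p r) (split_linear p r) v
    have hvv : volume (split p r ⁻¹' A ×ˢ B) = volume A * volume B := hv
    rw [hvv] at hg
    refine le_trans ?_ hg
    rw [hv, mul_add, mul_one]
    gcongr
    have ed : x ⬝ᵥ v = b * (qa ⬝ᵥ (split p r v).1) + a * (qb ⬝ᵥ (split p r v).2) := by
      rw [← smul_eq_mul, ← smul_eq_mul, ← smul_dotProduct, ← smul_dotProduct, e1, e2]
      simp [dotProduct, Fin.sum_univ_add, split]
    rw [ed]
    refine (ENNReal.ofReal_le_ofReal (abs_add_le _ _)).trans (ENNReal.ofReal_add_le.trans ?_)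
    simp only [Function.comp, abs_mul, abs_of_pos ha, abs_of_pos hb,
      ENNReal.ofReal_mul ha.le, ENNReal.ofReal_mul hb.le, ea, eb, mul_add]
    refine add_le_add (le_of_eq ?_) (le_of_eq ?_)
    · rw [mul_comm (volume A) (volume B), mul_assoc, ENNReal.mul_div_cancel hA.pos hA.ne_top]
    · rw [mul_assoc, ENNReal.mul_div_cancel hB.pos hB.ne_top]
  refine le_trans ?_ (measure_mono hsub)
  rw [(split_mp p r).measure_preimage_equiv, Measure.volume_eq_prod, Measure.prod_prod,
    Measure.addHaar_smul, Measure.addHaar_smul, Module.finrank_fin_fun, Module.finrank_fin_fun,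
    abs_of_nonneg (pow_nonneg hb.le _), abs_of_nonneg (pow_nonneg ha.le _),
    ENNReal.ofReal_pow ha.le, ENNReal.ofReal_pow hb.le, ea, eb, hv, mul_pow]
  obtain ⟨i, rfl⟩ : ∃ i, p = i + 1 := ⟨p - 1, by omega⟩
  obtain ⟨j, rfl⟩ : ∃ j, r = j + 1 := ⟨r - 1, by omega⟩
  calc 2 ^ (i + 1 + (j + 1)) * (volume A ^ (i + 1 + (j + 1) - 1) * volume B ^ (i + 1 + (j + 1) - 1))
      = volume B ^ (i + 1) * (2 ^ (i + 1) * volume A ^ (i + 1 - 1))
        * (volume A ^ (j + 1) * (2 ^ (j + 1) * volume B ^ (j + 1 - 1))) := by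
        rw [Nat.add_sub_cancel, Nat.add_sub_cancel, show i + 1 + (j + 1) - 1 = i + j + 1 by omega]
        ring
    _ ≤ _ := mul_le_mul' (mul_le_mul_right hA.bound _) (mul_le_mul_right hB.bound _)

end Vale.Agent.P237.Frusta
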