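import Mathlib
import Vale.Agent.P237.Frusta.Body
import Vale.Agent.P237.Frusta.Shadow

/-!
A frustum over a good body is good.
-/

namespace Vale.Agent.P237.Frusta

open MeasureTheory Set
open scoped ENNReal Pointwise Matrix

/-- `∫₀¹ (1 - (1 - s) t) ^ j dt`. -/
noncomputable def moment (s : ℝ) (j : ℕ) : ℝ := ∫ t in (0 : ℝ)..1, (1 - (1 - s) * t) ^ j

theorem moment_eq {s : ℝ} (hs : s < 1) (j : ℕ) :
    (1 - s) * moment s j = (1 - s ^ (j + 1)) / ((j : ℝ) + 1) := by
  rw [moment, intervalIntegral.integral_comp_sub_mul (fun x => x ^ j) (sub_ne_zero.mpr hs.ne')]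
  rw [smul_eq_mul, ← mul_assoc, mul_inv_cancel₀ (sub_ne_zero.mpr hs.ne'), one_mul, integral_pow]
  simp

theorem moment_pos {s : ℝ} (h0 : 0 ≤ s) (hs : s < 1) (j : ℕ) : 0 < moment s j := by
  have h := moment_eq hs j
  have : 0 < (1 - s ^ (j + 1)) / ((j : ℝ) + 1) :=
    div_pos (sub_pos.mpr (pow_lt_one₀ h0 hs (Nat.succ_ne_zero j))) (by positivity)
  rw [← h] at this
  exact (mul_pos_iff_of_pos_left (sub_pos.mpr hs)).mp this

theorem moment_ineq {s : ℝ} (h0 : 0 ≤ s) (hs : s < 1) (k : ℕ) :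
    2 * moment s (k + 1) ^ (k + 1) ≤ (1 + s ^ (k + 1)) * moment s k ^ (k + 1) := by
  set lam : ℝ → ℝ := fun t => 1 - (1 - s) * t
  set Ik := moment s k
  set Im := moment s (k + 1)
  have hk := moment_pos h0 hs k
  have hm := moment_pos h0 hs (k + 1)
  set c := Im / Ik with hc
  have hc0 : 0 < c := div_pos hm hk
  have hpt : ∀ t ∈ Icc (0 : ℝ) 1, (c ^ (k + 1) - ((k : ℝ) + 1) * c ^ (k + 1)) * lam t ^ k
      + ((k : ℝ) + 1) * c ^ k * lam t ^ (k + 1) ≤ lam t ^ (2 * k + 1) := by
    intro t ht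
    have hl : 0 ≤ lam t := by simp only [lam]; nlinarith [ht.1, ht.2]
    have hb := one_add_mul_le_pow (show -2 ≤ lam t / c - 1 by
      have := div_nonneg hl hc0.le; linarith) (k + 1)
    rw [show 1 + (lam t / c - 1) = lam t / c by ring, div_pow, le_div_iff₀ (by positivity)] at hb
    have h := mul_le_mul_of_nonneg_left hb (pow_nonneg hl k)
    rw [← pow_add, show k + (k + 1) = 2 * k + 1 by ring] at h
    refine le_trans (le_of_eq ?_) h
    push_cast
    field_simp
    ring
  have hint : ∀ j : ℕ, IntervalIntegrable (fun t => lam t ^ j) volume 0 1 := fun j =>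
    (by fun_prop : Continuous fun t => lam t ^ j).intervalIntegrable _ _
  have h := intervalIntegral.integral_mono_on zero_le_one
    ((hint k).const_mul _ |>.add ((hint (k + 1)).const_mul _)) (hint (2 * k + 1)) hpt
  rw [intervalIntegral.integral_add ((hint k).const_mul _) ((hint (k + 1)).const_mul _),
    intervalIntegral.integral_const_mul, intervalIntegral.integral_const_mul] at h
  change (c ^ (k + 1) - ((k : ℝ) + 1) * c ^ (k + 1)) * Ik + ((k : ℝ) + 1) * c ^ k * Im
    ≤ moment s (2 * k + 1) at h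
  have e1 : Im = c * Ik := by rw [hc, div_mul_cancel₀ _ hk.ne']
  have h2 : moment s (2 * k + 1) = (1 + s ^ (k + 1)) / 2 * Ik := by
    refine mul_left_cancel₀ (sub_ne_zero.mpr hs.ne') ?_
    rw [moment_eq hs, show (1 - s) * ((1 + s ^ (k + 1)) / 2 * Ik)
      = (1 + s ^ (k + 1)) / 2 * ((1 - s) * Ik) by ring, moment_eq hs,
      show 2 * k + 1 + 1 = (k + 1) + (k + 1) by ring, pow_add]
    push_cast
    field_simp
    ring
  rw [h2, e1] at h
  have h3 : c ^ (k + 1) * Ik ≤ (1 + s ^ (k + 1)) / 2 * Ik := by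
    refine le_trans (le_of_eq ?_) h
    ring
  have h4 := le_of_mul_le_mul_right h3 hk
  rw [e1, mul_pow]
  have h5 := mul_le_mul_of_nonneg_right h4 (pow_nonneg hk.le (k + 1))
  linarith

variable {k : ℕ}

/-- The frustum over `C`, in product coordinates. -/
def frustumPair (s : ℝ) (C : Set (Fin (k + 1) → ℝ)) : Set (ℝ × (Fin (k + 1) → ℝ)) :=
  (fun z : ℝ × (Fin (k + 1) → ℝ) => (z.1, (1 - (1 - s) * z.1) • z.2)) '' Icc (0 : ℝ) 1 ×ˢ C

/-- The frustum with base `C` at height zero and top `s • C` at height one. -/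
def frustum (s : ℝ) (C : Set (Fin (k + 1) → ℝ)) : Set (Fin (k + 2) → ℝ) :=
  {x | x 0 ∈ Icc (0 : ℝ) 1 ∧ Fin.tail x ∈ (1 - (1 - s) * x 0) • C}

theorem frustumPair_fibre (s : ℝ) (C : Set (Fin (k + 1) → ℝ)) (t : ℝ) (ht : t ∈ Icc (0 : ℝ) 1) :
    Prod.mk t ⁻¹' frustumPair s C = (1 - (1 - s) * t) • C := by
  ext y
  constructor
  · rintro ⟨⟨a, c⟩, ⟨-, hc⟩, he⟩
    simp only [Prod.mk.injEq] at he
    obtain ⟨rfl, rfl⟩ := he
    exact smul_mem_smul_set hc
  · rintro ⟨c, hc, rfl⟩
    exact ⟨(t, c), ⟨ht, hc⟩, rfl⟩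

theorem isCompact_frustumPair {C : Set (Fin (k + 1) → ℝ)} (cC : IsCompact C) (s : ℝ) :
    IsCompact (frustumPair s C) := (isCompact_Icc.prod cC).image (by fun_prop)

theorem convex_frustumPair {C : Set (Fin (k + 1) → ℝ)} (hC : Convex ℝ C) {s : ℝ} (h0 : 0 ≤ s)
    (h1 : s ≤ 1) : Convex ℝ (frustumPair s C) := by
  rintro _ ⟨⟨a, c⟩, ⟨ha, hc⟩, rfl⟩ _ ⟨⟨b, d⟩, ⟨hb, hd⟩, rfl⟩ u v hu hv huv
  have la : 0 ≤ 1 - (1 - s) * a := by nlinarith [ha.1, ha.2]
  have lb : 0 ≤ 1 - (1 - s) * b := by nlinarith [hb.1, hb.2]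
  have hmem : u • (1 - (1 - s) * a) • c + v • (1 - (1 - s) * b) • d
      ∈ (u * (1 - (1 - s) * a) + v * (1 - (1 - s) * b)) • C := by
    rw [hC.add_smul (mul_nonneg hu la) (mul_nonneg hv lb), smul_smul, smul_smul]
    exact add_mem_add (smul_mem_smul_set hc) (smul_mem_smul_set hd)
  obtain ⟨e, he, heq⟩ := hmem
  refine ⟨(u * a + v * b, e), ⟨convex_Icc 0 1 ha hb hu hv huv, he⟩, ?_⟩
  simp only at heq ⊢
  simp only [Prod.smul_mk, Prod.mk_add_mk, smul_eq_mul, Prod.mk.injEq, true_and]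
  rw [show 1 - (1 - s) * (u * a + v * b) = u * (1 - (1 - s) * a) + v * (1 - (1 - s) * b) by
    linear_combination (-1 : ℝ) * huv]
  exact heq

theorem volume_frustumPair {C : Set (Fin (k + 1) → ℝ)} (cC : IsCompact C) {s : ℝ} (h0 : 0 ≤ s)
    (h1 : s ≤ 1) :
    volume (frustumPair s C) = ENNReal.ofReal (moment s (k + 1)) * volume C := by
  rw [Measure.volume_eq_prod, Measure.prod_apply (isCompact_frustumPair cC s).isClosed.measurableSet]
  have h : ∀ t : ℝ, volume (Prod.mk t ⁻¹' frustumPair s C) = (Icc (0 : ℝ) 1).indicator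
      (fun t => ENNReal.ofReal ((1 - (1 - s) * t) ^ (k + 1)) * volume C) t := by
    intro t
    by_cases ht : t ∈ Icc (0 : ℝ) 1
    · rw [indicator_of_mem ht, frustumPair_fibre s C t ht,
        Measure.addHaar_smul_of_nonneg volume (by nlinarith [ht.1, ht.2]), Module.finrank_fin_fun]
    · rw [indicator_of_notMem ht]
      have e : Prod.mk t ⁻¹' frustumPair s C = ∅ := by
        refine eq_empty_of_forall_notMem fun y ⟨⟨a, c⟩, ⟨ha, _⟩, he⟩ => ht ?_
        simp only [Prod.mk.injEq] at he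
        exact he.1 ▸ ha
      rw [e, measure_empty]
  simp only [h]
  rw [lintegral_indicator measurableSet_Icc, lintegral_mul_const _ (by fun_prop),
    integral_pow_affine (k + 1) (by linarith) (by linarith)]
  rfl

theorem frustum_horizontal {C : Set (Fin (k + 1) → ℝ)} (cC : IsCompact C) {s : ℝ} (h0 : 0 ≤ s)
    (h1 : s < 1) {q : Fin (k + 1) → ℝ} (hq : q ∈ Pol C) (a : Fin (k + 1) → ℝ) :
    volume (frustumPair s C) + ENNReal.ofReal (moment s k * |q ⬝ᵥ a|)
      ≤ volume (frustumPair s C + seg ((0, a) : ℝ × (Fin (k + 1) → ℝ))) := by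
  rw [volume_frustumPair cC h0 h1.le]
  have hm : MeasurableSet (frustumPair s C + seg ((0, a) : ℝ × (Fin (k + 1) → ℝ))) :=
    ((isCompact_frustumPair cC s).add (isCompact_seg _)).isClosed.measurableSet
  rw [Measure.volume_eq_prod, Measure.prod_apply hm, ENNReal.ofReal_mul (moment_pos h0 h1 k).le]
  have e : ∀ j, ENNReal.ofReal (moment s j)
      = ∫⁻ t in Ico (0 : ℝ) 1, ENNReal.ofReal ((1 - (1 - s) * t) ^ j) := fun j => by
    rw [setLIntegral_congr Ico_ae_eq_Icc, integral_pow_affine j (by linarith) (by linarith)]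
    rfl
  rw [e, e, ← lintegral_mul_const _ (by fun_prop), ← lintegral_mul_const _ (by fun_prop),
    ← lintegral_add_left (by fun_prop)]
  refine le_trans (setLIntegral_mono' measurableSet_Ico fun t ht => ?_) (setLIntegral_le_lintegral _ _)
  set l := 1 - (1 - s) * t with hl
  have hl0 : 0 < l := by rw [hl]; nlinarith [ht.1, ht.2]
  have hsub : l • (C + seg (l⁻¹ • a))
      ⊆ Prod.mk t ⁻¹' (frustumPair s C + seg ((0, a) : ℝ × (Fin (k + 1) → ℝ))) := by
    rintro _ ⟨_, ⟨c, hc, _, ⟨u, hu, rfl⟩, rfl⟩, rfl⟩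
    refine ⟨(t, l • c), ⟨(t, c), ⟨Ico_subset_Icc_self ht, hc⟩, rfl⟩, u • (0, a), ⟨u, hu, rfl⟩, ?_⟩
    simp [smul_add, smul_smul]
    rw [mul_left_comm, mul_inv_cancel₀ hl0.ne', mul_one]
  refine le_trans ?_ (measure_mono hsub)
  rw [Measure.addHaar_smul_of_nonneg volume hl0.le, Module.finrank_fin_fun]
  refine le_trans (le_of_eq ?_) (mul_le_mul_right (hq (l⁻¹ • a)) _)
  rw [mul_add, ← ENNReal.ofReal_mul (pow_nonneg hl0.le (k + 1)),
    ← ENNReal.ofReal_mul (pow_nonneg hl0.le k), dotProduct_smul, smul_eq_mul, abs_mul,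
    abs_of_pos (inv_pos.mpr hl0)]
  congr 2
  field_simp
  ring

theorem frustum_shadow {C : Set (Fin (k + 1) → ℝ)} (hC : Convex ℝ C) (cC : IsCompact C) {s : ℝ}
    (h0 : 0 ≤ s) (h1 : s < 1) {τ : ℝ} (hτ : τ ≠ 0) (a : Fin (k + 1) → ℝ) :
    volume (frustumPair s C)
      + ENNReal.ofReal |τ| * volume (hull s C (-((1 - s)⁻¹ * τ⁻¹) • a))
      ≤ volume (frustumPair s C + seg ((τ, a) : ℝ × (Fin (k + 1) → ℝ))) := by
  set e : ℝ × (Fin (k + 1) → ℝ) → ℝ × (Fin (k + 1) → ℝ) := fun z => (z.1 * τ, z.2 + z.1 • a)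
  have hec : Continuous e := by fun_prop
  have hvol : ∀ {A : Set (ℝ × (Fin (k + 1) → ℝ))}, MeasurableSet A →
      volume A = ENNReal.ofReal |τ| * volume (e ⁻¹' A) := by
    intro A hA
    rw [Measure.volume_eq_prod, Measure.prod_apply hA, Measure.prod_apply (hec.measurable hA)]
    have h : ∀ r : ℝ, volume (Prod.mk r ⁻¹' (e ⁻¹' A)) = volume (Prod.mk (r * τ) ⁻¹' A) := by
      intro r
      rw [show Prod.mk r ⁻¹' (e ⁻¹' A) = (fun y => y + r • a) ⁻¹' (Prod.mk (r * τ) ⁻¹' A) from rfl,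
        measure_preimage_add_right]
    simp only [h]
    have hg : Measurable fun z : ℝ => volume (Prod.mk z ⁻¹' A) :=
      measurable_measure_prodMk_left hA
    rw [← lintegral_map hg (measurable_mul_const τ)]
    rw [Real.map_volume_mul_right hτ, lintegral_smul_measure, smul_eq_mul, ← mul_assoc,
      ← ENNReal.ofReal_mul (abs_nonneg _), abs_inv, mul_inv_cancel₀ (abs_ne_zero.mpr hτ),
      ENNReal.ofReal_one, one_mul]
  set F := frustumPair s C
  set K' := e ⁻¹' F with hK'
  have hl : IsLinearMap ℝ e := by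
    constructor <;> intros <;> ext <;> simp [e] <;> ring
  have hinv : ∀ z, e (z.1 / τ, z.2 - (z.1 / τ) • a) = z := fun z => by
    simp [e, div_mul_cancel₀ _ hτ]
  have hinv2 : ∀ z, ((e z).1 / τ, (e z).2 - ((e z).1 / τ) • a) = z := fun z => by
    simp [e, mul_div_cancel_right₀ _ hτ]
  have cK' : IsCompact K' := by
    have : K' = (fun z : ℝ × (Fin (k + 1) → ℝ) => (z.1 / τ, z.2 - (z.1 / τ) • a)) '' F := by
      ext z
      exact ⟨fun h => ⟨e z, h, hinv2 z⟩, fun ⟨y, hy, hyz⟩ => by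
        rw [← hyz, hK', mem_preimage, hinv]; exact hy⟩
    rw [this]
    exact (isCompact_frustumPair cC s).image (by fun_prop)
  have h := slice_lower ((convex_frustumPair hC h0 h1.le).is_linear_preimage hl) cK'
  have hshadow : hull s C (-((1 - s)⁻¹ * τ⁻¹) • a) ⊆ Prod.snd '' K' := by
    rintro _ ⟨⟨l, c⟩, ⟨hlI, hc⟩, rfl⟩
    have hs1 : 0 < 1 - s := sub_pos.mpr h1
    set z := (1 - l) / (1 - s) with hz
    have hzI : z ∈ Icc (0 : ℝ) 1 :=
      ⟨div_nonneg (by linarith [hlI.2]) hs1.le, (div_le_one hs1).mpr (by linarith [hlI.1])⟩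
    refine ⟨(z / τ, (1 - (1 - s) * z) • c - (z / τ) • a), ?_, ?_⟩
    · rw [hK', mem_preimage]
      exact ⟨(z, c), ⟨hzI, hc⟩, by simp [e, div_mul_cancel₀ _ hτ]⟩
    · have e1 : 1 - (1 - s) * z = l := by rw [hz]; field_simp; ring
      simp only [e1, smul_smul]
      rw [sub_eq_add_neg, ← neg_smul]
      congr 2
      rw [hz]; field_simp
  have hseg : K' + seg ((1, 0) : ℝ × (Fin (k + 1) → ℝ)) = e ⁻¹' (F + seg (τ, a)) := by
    ext z
    constructor
    · rintro ⟨y, hy, _, ⟨u, hu, rfl⟩, rfl⟩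
      exact ⟨e y, hy, u • (τ, a), ⟨u, hu, rfl⟩, by
        rw [hl.map_add, hl.map_smul]; simp [e]⟩
    · rintro ⟨y, hy, _, ⟨u, hu, rfl⟩, he⟩
      refine ⟨(y.1 / τ, y.2 - (y.1 / τ) • a), by rw [hK', mem_preimage, hinv]; exact hy,
        u • (1, 0), ⟨u, hu, rfl⟩, ?_⟩
      rw [← hinv2 z, ← he]
      ext j <;> simp
      · field_simp
      · field_simp; ring
  have hmF : MeasurableSet F := (isCompact_frustumPair cC s).isClosed.measurableSet
  have hmS : MeasurableSet (F + seg ((τ, a) : ℝ × (Fin (k + 1) → ℝ))) :=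
    ((isCompact_frustumPair cC s).add (isCompact_seg _)).isClosed.measurableSet
  rw [hvol hmS, hvol hmF, ← mul_add, ← hseg]
  exact mul_le_mul_right (le_trans (add_le_add le_rfl (measure_mono hshadow)) h) _

theorem good_frustum {C : Set (Fin (k + 1) → ℝ)} (hG : Good C) {s : ℝ} (h0 : 0 ≤ s) (h1 : s < 1) :
    Good (frustum s C) := by
  set F := frustumPair s C
  set π₀ := MeasurableEquiv.piFinSuccAbove (fun _ : Fin (k + 2) => ℝ) 0 with hπ
  have hmp : MeasurePreserving π₀ volume volume :=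
    volume_preserving_piFinSuccAbove (fun _ : Fin (k + 2) => ℝ) 0
  have happ : ∀ x, π₀ x = (x 0, Fin.tail x) := fun x => by
    simp [hπ, MeasurableEquiv.piFinSuccAbove, Fin.tail_def]
  have hl : IsLinearMap ℝ π₀ := by
    constructor <;> intros <;> simp only [happ] <;> ext <;> simp [Fin.tail_def]
  have hK : frustum s C = π₀ ⁻¹' F := by
    ext x
    simp only [mem_preimage, happ]
    constructor
    · rintro ⟨h, c, hc, he⟩; exact ⟨(x 0, c), ⟨h, hc⟩, Prod.ext rfl he⟩
    · rintro ⟨⟨z, c⟩, ⟨hz, hc⟩, he⟩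
      simp only [Prod.mk.injEq] at he
      obtain ⟨rfl, he⟩ := he
      exact ⟨hz, c, hc, he⟩
  have hF := volume_frustumPair hG.compact h0 h1.le
  set f := (volume C).toReal
  have hf : 0 < f := ENNReal.toReal_pos hG.pos hG.ne_top
  have ef : ENNReal.ofReal f = volume C := ENNReal.ofReal_toReal hG.ne_top
  have hIk := moment_pos h0 h1 k
  have hIm := moment_pos h0 h1 (k + 1)
  have hvK : volume (frustum s C) = ENNReal.ofReal (moment s (k + 1)) * volume C := by
    rw [hK, hmp.measure_preimage_equiv]; exact hF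
  have hcomp : IsCompact (frustum s C) := by
    have hc : Continuous π₀.symm := by
      have : ⇑π₀.symm = fun z : ℝ × (Fin (k + 1) → ℝ) => Fin.insertNth 0 z.1 z.2 := rfl
      rw [this]; fun_prop
    have e : frustum s C = π₀.symm '' F := by
      rw [hK]; ext x
      exact ⟨fun h => ⟨_, h, π₀.symm_apply_apply x⟩, fun ⟨y, hy, h⟩ => by simpa [← h] using hy⟩
    rw [e]; exact (isCompact_frustumPair hG.compact s).image hc
  refine ⟨hK ▸ (convex_frustumPair hG.convex h0 h1.le).is_linear_preimage hl, hcomp,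
    by rw [hvK]; exact mul_ne_zero (ENNReal.ofReal_pos.mpr hIm).ne' hG.pos, ?_⟩
  -- the set of admissible functionals
  set Q : Set (ℝ × (Fin (k + 1) → ℝ)) :=
    {w | ∀ v, volume F + ENNReal.ofReal |w.1 * v.1 + w.2 ⬝ᵥ v.2| ≤ volume (F + seg v)} with hQ
  have hQm : MeasurableSet Q := by
    have : Q = ⋂ v, {w | volume F + ENNReal.ofReal |w.1 * v.1 + w.2 ⬝ᵥ v.2|
        ≤ volume (F + seg v)} := by ext w; simp [hQ]
    rw [this]
    refine (isClosed_iInter fun v => isClosed_le ?_ continuous_const).measurableSet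
    exact continuous_const.add (ENNReal.continuous_ofReal.comp (continuous_abs.comp
      ((continuous_fst.mul continuous_const).add (continuous_snd.dotProduct continuous_const))))
  have hsub : π₀ ⁻¹' Q ⊆ Pol (frustum s C) := by
    intro x hx v
    have hF0 : volume F ≠ 0 := by rw [hF]; exact mul_ne_zero (ENNReal.ofReal_pos.mpr hIm).ne' hG.pos
    have hFt : volume F ≠ ⊤ := (isCompact_frustumPair hG.compact s).measure_ne_top
    have hg : Grows F fun w => ENNReal.ofReal |(π₀ x).1 * w.1 + (π₀ x).2 ⬝ᵥ w.2| / volume F :=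
      fun w => by rw [mul_add, mul_one, ENNReal.mul_div_cancel hF0 hFt]; exact hx w
    have h := hg.comap π₀ hmp hl v
    rw [← hK, hvK, ← hF, mul_add, mul_one] at h
    rw [hvK, ← hF]
    refine le_trans (le_of_eq ?_) h
    simp only [Function.comp, happ]
    rw [ENNReal.mul_div_cancel hF0 hFt, dotProduct, Fin.sum_univ_succ]
    rfl
  refine le_trans ?_ (measure_mono hsub)
  rw [hmp.measure_preimage_equiv, Measure.volume_eq_prod, Measure.prod_apply_symm hQm]
  set L := (1 + s ^ (k + 1)) * f with hL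
  have key : ∀ w, ((moment s k) • Pol C).indicator (fun _ => ENNReal.ofReal L) w
      ≤ volume ((fun β => (β, w)) ⁻¹' Q) := by
    intro w
    by_cases hw : w ∈ (moment s k) • Pol C
    swap
    · rw [indicator_of_notMem hw]; exact zero_le
    rw [indicator_of_mem hw]
    obtain ⟨q, hq, rfl⟩ := hw
    set pt : (Fin (k + 1) → ℝ) → (Fin (k + 1) → ℝ) := fun b => -(1 - s)⁻¹ • b
    set φ : (Fin (k + 1) → ℝ) → ℝ := fun b => (volume (hull s C (pt b))).toReal
    set g : (Fin (k + 1) → ℝ) → ℝ := fun b => moment s k * (q ⬝ᵥ b)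
    have hs1 : 0 < 1 - s := sub_pos.mpr h1
    have hpair : ∀ b c, L + |g b - g c| ≤ φ b + φ c := by
      intro b c
      have hfin : ∀ (u : ℝ) (z : Fin (k + 1) → ℝ), volume (hull u C z) ≠ ⊤ := fun u z =>
        (isCompact_hull hG.compact u z).measure_ne_top
      have sp : ∀ z, (volume (hull 0 C z)).toReal + s ^ (k + 1) * f
          ≤ (volume (hull s C z)).toReal + s ^ (k + 1) * (volume (hull 0 C z)).toReal := by
        intro z
        have h := hull_split hG.compact h0 h1.le z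
        rw [Module.finrank_fin_fun] at h
        have h' := ENNReal.toReal_mono (ENNReal.add_ne_top.mpr
          ⟨hfin s z, ENNReal.mul_ne_top ENNReal.ofReal_ne_top (hfin 0 z)⟩) h
        rw [ENNReal.toReal_add (hfin 0 z) (ENNReal.mul_ne_top ENNReal.ofReal_ne_top hG.ne_top),
          ENNReal.toReal_add (hfin s z) (ENNReal.mul_ne_top ENNReal.ofReal_ne_top (hfin 0 z)),
          ENNReal.toReal_mul, ENNReal.toReal_mul,
          ENNReal.toReal_ofReal (pow_nonneg h0 _)] at h'
        exact h'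
      set A := (volume (hull 0 C (pt b))).toReal
      set B := (volume (hull 0 C (pt c))).toReal
      set D := q ⬝ᵥ (pt b - pt c)
      have htw : f + 1 / ((k : ℝ) + 1) * (f + |D|) ≤ A + B + 1 / ((k : ℝ) + 1) * f := by
        have h := two_hulls hG.convex hG.compact (pt b) (pt c)
        have h' := le_trans (add_le_add le_rfl (mul_le_mul_right (hq (pt b - pt c)) _)) h
        rw [← ef, ← ENNReal.ofReal_toReal (hfin 0 (pt b)), ← ENNReal.ofReal_toReal (hfin 0 (pt c)),
          ← ENNReal.ofReal_add hf.le (abs_nonneg _), ← ENNReal.ofReal_mul (by positivity),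
          ← ENNReal.ofReal_mul (by positivity), ← ENNReal.ofReal_add hf.le (by positivity),
          ← ENNReal.ofReal_add ENNReal.toReal_nonneg ENNReal.toReal_nonneg,
          ← ENNReal.ofReal_add (by positivity) (by positivity),
          ENNReal.ofReal_le_ofReal_iff (by positivity)] at h'
        exact h'
      have hD : (1 - s ^ (k + 1)) / ((k : ℝ) + 1) * |D| = |g b - g c| := by
        simp only [D, pt, g, ← smul_sub, dotProduct_smul, dotProduct_sub, smul_eq_mul]
        rw [← moment_eq h1 k, ← mul_sub, ← mul_sub, abs_mul, abs_mul, abs_neg, abs_inv, abs_of_pos hs1,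
          abs_of_pos hIk]
        field_simp
      have hp : 0 ≤ 1 - s ^ (k + 1) := sub_nonneg.mpr (pow_le_one₀ h0 h1.le)
      have h3 := mul_le_mul_of_nonneg_left htw hp
      have e3 : (1 - s ^ (k + 1)) / ((k : ℝ) + 1) * |D|
          = (1 - s ^ (k + 1)) * (1 / ((k : ℝ) + 1) * |D|) := by ring
      rw [← hD, hL, e3]
      linarith [sp (pt b), sp (pt c)]
    set S : Set ℝ := range fun b => -φ b - g b with hS
    have hub : ∀ c, φ c - g c - L ∈ upperBounds S := by
      rintro c _ ⟨b, rfl⟩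
      have := hpair b c
      have := neg_abs_le (g b - g c)
      simp only at *
      linarith
    set l := sSup S
    have hl1 : ∀ b, -φ b - g b ≤ l := fun b => le_csSup ⟨_, hub 0⟩ ⟨b, rfl⟩
    have hl2 : ∀ c, l + L ≤ φ c - g c := fun c => by
      have := csSup_le (range_nonempty _) (hub c)
      linarith
    have hIcc : Icc l (l + L) ⊆ (fun β => (β, moment s k • q)) ⁻¹' Q := by
      rintro β hβ ⟨τ, a⟩
      simp only [smul_dotProduct, smul_eq_mul]
      by_cases hτ : τ = 0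
      · subst hτ
        rw [mul_zero, zero_add, abs_mul, abs_of_pos hIk]
        exact frustum_horizontal hG.compact h0 h1 hq a
      · refine le_trans (add_le_add le_rfl ?_) (frustum_shadow hG.convex hG.compact h0 h1 hτ a)
        set b := τ⁻¹ • a with hb
        have hpb : -((1 - s)⁻¹ * τ⁻¹) • a = pt b := by
          simp only [pt, hb, smul_smul]; ring_nf
        rw [hpb, ← ENNReal.ofReal_toReal (isCompact_hull hG.compact s (pt b)).measure_ne_top,
          ← ENNReal.ofReal_mul (abs_nonneg _)]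
        refine ENNReal.ofReal_le_ofReal ?_
        have hga : moment s k * (q ⬝ᵥ a) = τ * g b := by
          simp only [g, hb, dotProduct_smul, smul_eq_mul]; field_simp
        rw [hga, mul_comm β τ, ← mul_add, abs_mul]
        refine mul_le_mul_of_nonneg_left (abs_le.mpr ⟨?_, ?_⟩) (abs_nonneg _)
        · linarith [hl1 b, hβ.1]
        · linarith [hl2 b, hβ.2]
    refine le_trans (le_of_eq ?_) (measure_mono hIcc)
    rw [Real.volume_Icc, add_sub_cancel_left]
  refine le_trans ?_ (lintegral_mono key)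
  have hPm : MeasurableSet ((moment s k) • Pol C) :=
    ((isClosed_pol C).smul_of_ne_zero hIk.ne').measurableSet
  rw [lintegral_indicator hPm, setLIntegral_const, Measure.addHaar_smul_of_nonneg volume hIk.le,
    Module.finrank_fin_fun, hvK]
  refine le_trans ?_ (mul_le_mul_right (mul_le_mul_right hG.bound _) _)
  rw [show k + 2 - 1 = k + 1 by omega, Nat.add_sub_cancel, ← ef, show (2 : ℝ≥0∞) = ENNReal.ofReal 2
    by simp, ← ENNReal.ofReal_mul hIm.le, ← ENNReal.ofReal_pow zero_le_two,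
    ← ENNReal.ofReal_pow zero_le_two, ← ENNReal.ofReal_pow (by positivity),
    ← ENNReal.ofReal_pow hf.le, ← ENNReal.ofReal_mul (by positivity),
    ← ENNReal.ofReal_mul (by positivity), ← ENNReal.ofReal_mul (by positivity),
    ← ENNReal.ofReal_mul (by positivity)]
  refine ENNReal.ofReal_le_ofReal ?_
  have h := mul_le_mul_of_nonneg_left (moment_ineq h0 h1 k)
    (show (0 : ℝ) ≤ 2 ^ (k + 1) * f ^ (k + 1) by positivity)
  rw [hL]
  calc 2 ^ (k + 2) * (moment s (k + 1) * f) ^ (k + 1)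
      = 2 ^ (k + 1) * f ^ (k + 1) * (2 * moment s (k + 1) ^ (k + 1)) := by ring
    _ ≤ 2 ^ (k + 1) * f ^ (k + 1) * ((1 + s ^ (k + 1)) * moment s k ^ (k + 1)) := h
    _ = _ := by ring

end Vale.Agent.P237.Frusta
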