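import Mathlib
import Vale.Agent.P237.Main
import Vale.Agent.P237.Frusta.Frustum

/-!
The class built from planar bodies and segments by affine maps, products and frusta.
-/

namespace Vale.Agent.P237.Frusta

open MeasureTheory Set
open scoped ENNReal Pointwise Matrix RealInnerProductSpace

/-- The Cartesian product of two coordinate bodies. -/
def product {p r : ℕ} (A : Set (Fin p → ℝ)) (B : Set (Fin r → ℝ)) : Set (Fin (p + r) → ℝ) :=
  {x | (fun i => x (Fin.castAdd r i)) ∈ A ∧ (fun j => x (Fin.natAdd p j)) ∈ B}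

/-- Planar convex bodies and the unit segment, closed under invertible affine maps, Cartesian
products, and frusta with homothety ratio in `[0, 1)`; ratio zero gives cones. -/
inductive IsBuilt : (n : ℕ) → Set (Fin n → ℝ) → Prop
  | planar (A : Set (Fin 2 → ℝ)) : IsBody A → IsBuilt 2 A
  | interval : IsBuilt 1 {x | x 0 ∈ Icc (0 : ℝ) 1}
  | affine {n : ℕ} (M : Matrix (Fin n) (Fin n) ℝ) (c : Fin n → ℝ) (K : Set (Fin n → ℝ)) :
      M.det ≠ 0 → IsBuilt n K → IsBuilt n (affMap M c '' K)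
  | product {p r : ℕ} (A : Set (Fin p → ℝ)) (B : Set (Fin r → ℝ)) :
      IsBuilt p A → IsBuilt r B → IsBuilt (p + r) (product A B)
  | frustum {k : ℕ} (s : ℝ) (C : Set (Fin (k + 1) → ℝ)) :
      0 ≤ s → s < 1 → IsBuilt (k + 1) C → IsBuilt (k + 2) (Frusta.frustum s C)

theorem IsBuilt.good {n : ℕ} {K : Set (Fin n → ℝ)} (h : IsBuilt n K) : 1 ≤ n ∧ Good K := by
  induction h with
  | planar A hA => exact ⟨by norm_num, good_planar hA.1 hA.2.1 hA.2.2⟩
  | interval => exact ⟨le_rfl, good_interval⟩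
  | affine M c K hM _ ih => exact ⟨ih.1, ih.2.affine ih.1 hM c⟩
  | product A B _ _ ihA ihB =>
      refine ⟨by have := ihA.1; omega, ?_⟩
      exact ihA.2.prod ihB.2 ihA.1 ihB.1
  | frustum s C h0 h1 _ ih => exact ⟨by omega, good_frustum ih.2 h0 h1⟩

/-- A coordinate body as a subset of Euclidean space. -/
def euclidean {n : ℕ} (K : Set (Fin n → ℝ)) : Set (EuclideanSpace ℝ (Fin n)) := WithLp.toLp 2 '' K

theorem volume_euclidean {n : ℕ} (K : Set (Fin n → ℝ)) : volume (euclidean K) = volume K := by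
  have h : euclidean K = (MeasurableEquiv.toLp 2 (Fin n → ℝ)).symm ⁻¹' K := by
    ext x
    exact ⟨fun ⟨y, hy, e⟩ => by rw [← e]; exact hy, fun hx => ⟨_, hx, rfl⟩⟩
  rw [h, (EuclideanSpace.volume_preserving_symm_measurableEquiv_toLp _).measure_preimage_equiv]

theorem pol_subset_projBody {n : ℕ} {K : Set (Fin n → ℝ)} (h : Good K) :
    euclidean (Pol K) ⊆ projBody (euclidean K) := by
  rintro _ ⟨q, hq, rfl⟩ u hu
  set L : (Fin n → ℝ) →ₗ[ℝ] EuclideanSpace ℝ (Fin n) :=
    (WithLp.linearEquiv 2 ℝ (Fin n → ℝ)).symm.toLinearMap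
  have hKc : Convex ℝ (euclidean K) := h.convex.linear_image L
  have hKk : IsCompact (euclidean K) := h.compact.image (PiLp.continuous_toLp 2 _)
  have hs : euclidean K + seg u = euclidean (K + seg (WithLp.ofLp u)) := by
    ext x
    constructor
    · rintro ⟨_, ⟨z, hz, rfl⟩, _, ⟨t, ht, rfl⟩, rfl⟩
      exact ⟨z + t • WithLp.ofLp u, ⟨z, hz, _, ⟨t, ht, rfl⟩, rfl⟩, rfl⟩
    · rintro ⟨_, ⟨z, hz, _, ⟨t, ht, rfl⟩, rfl⟩, rfl⟩
      exact ⟨WithLp.toLp 2 z, ⟨z, hz, rfl⟩, t • u, ⟨t, ht, rfl⟩, rfl⟩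
  have hp : shadow (euclidean K) u ≠ ⊤ :=
    (hKk.image (ContinuousLinearMap.continuous _)).measure_ne_top
  have key : ENNReal.ofReal |q ⬝ᵥ WithLp.ofLp u| ≤ shadow (euclidean K) u := by
    refine (ENNReal.add_le_add_iff_left h.ne_top).mp (le_trans (hq _) ?_)
    rw [← volume_euclidean K, ← volume_euclidean (K + _), ← hs]
    exact volume_seg_le hKc hKk hu
  refine le_trans (le_of_eq ?_) ((le_abs_self _).trans
    ((ENNReal.ofReal_le_iff_le_toReal hp).mp key))
  simp [PiLp.inner_apply, dotProduct, mul_comm]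

end Vale.Agent.P237.Frusta
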